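import Mathlib

/-!
# Markov-Kakutani (stand-alone, Mathlib only)

`C` is a nonempty compact convex subset of a Hausdorff real topological vector space.

* `exists_fixed_of_comm`: continuous linear maps which map `C` into itself and commute with each
  other on `C` have a common fixed point in `C`.
* `exists_fixed_of_solvable`: a solvable group which acts by continuous linear maps and preserves
  `C` has a fixed point in `C`.
-/

open Set Filter Topology
open scoped Pointwise commutatorElement

set_option linter.unusedSectionVars false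

namespace Vale.Agent.P011.H371

section MK

variable {E : Type*} [AddCommGroup E] [Module ℝ E] [TopologicalSpace E]

/-- the average `(1/(n+1)) (1 + T + ... + T^n)` -/
noncomputable def avg [IsTopologicalAddGroup E] [ContinuousSMul ℝ E]
    (T : E →L[ℝ] E) (n : ℕ) : E →L[ℝ] E :=
  ((n + 1 : ℕ) : ℝ)⁻¹ • ∑ j ∈ Finset.range (n + 1), T ^ j

variable [IsTopologicalAddGroup E] [ContinuousSMul ℝ E]

theorem pow_mapsTo {C : Set E} {T : E →L[ℝ] E} (hT : MapsTo T C C) (j : ℕ) :
    MapsTo (T ^ j : E →L[ℝ] E) C C := by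
  induction j with
  | zero => intro x hx; simpa using hx
  | succ j ih =>
    intro x hx
    rw [pow_succ]
    exact ih (hT hx)

theorem avg_apply (T : E →L[ℝ] E) (n : ℕ) (x : E) :
    avg T n x = ∑ j ∈ Finset.range (n + 1), ((n + 1 : ℕ) : ℝ)⁻¹ • (T ^ j : E →L[ℝ] E) x := by
  simp [avg, Finset.smul_sum]

theorem avg_mapsTo {C : Set E} (hconv : Convex ℝ C) {T : E →L[ℝ] E} (hT : MapsTo T C C) (n : ℕ) :
    MapsTo (avg T n) C C := by
  intro x hx
  rw [avg_apply]
  apply hconv.sum_mem
  · intro i _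
    positivity
  · rw [Finset.sum_const, Finset.card_range, nsmul_eq_mul]
    exact mul_inv_cancel₀ (by positivity)
  · intro i _
    exact pow_mapsTo hT i hx

/-- telescoping -/
theorem apply_avg_sub (T : E →L[ℝ] E) (n : ℕ) (x : E) :
    T (avg T n x) - avg T n x = ((n + 1 : ℕ) : ℝ)⁻¹ • ((T ^ (n + 1) : E →L[ℝ] E) x - x) := by
  have h1 : T (avg T n x) = ((n + 1 : ℕ) : ℝ)⁻¹ •
      ∑ j ∈ Finset.range (n + 1), (T ^ (j + 1) : E →L[ℝ] E) x := by
    rw [avg_apply, map_sum, Finset.smul_sum]
    refine Finset.sum_congr rfl fun j _ => ?_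
    rw [map_smul, pow_succ']
    rfl
  have h2 : avg T n x = ((n + 1 : ℕ) : ℝ)⁻¹ •
      ∑ j ∈ Finset.range (n + 1), (T ^ j : E →L[ℝ] E) x := by
    rw [avg_apply, Finset.smul_sum]
  rw [h1, h2, ← smul_sub, ← Finset.sum_sub_distrib]
  congr 1
  rw [Finset.sum_range_sub (fun j => (T ^ j : E →L[ℝ] E) x)]
  simp

/-- `g` and `h` commute on `C`. -/
def CommOn (C : Set E) (g h : E →L[ℝ] E) : Prop := ∀ x ∈ C, g (h x) = h (g x)

theorem CommOn.symm {C : Set E} {g h : E →L[ℝ] E} (H : CommOn C g h) : CommOn C h g :=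
  fun x hx => (H x hx).symm

theorem CommOn.one (C : Set E) (g : E →L[ℝ] E) : CommOn C g 1 := fun _ _ => rfl

theorem CommOn.mul {C : Set E} {g h h' : E →L[ℝ] E} (H : CommOn C g h) (H' : CommOn C g h')
    (hh' : MapsTo h' C C) : CommOn C g (h * h') := by
  intro x hx
  change g (h (h' x)) = h (h' (g x))
  rw [H _ (hh' hx), H' _ hx]

theorem CommOn.pow {C : Set E} {g h : E →L[ℝ] E} (H : CommOn C g h) (hh : MapsTo h C C)
    (j : ℕ) : CommOn C g (h ^ j) := by
  induction j with
  | zero => rw [pow_zero]; exact CommOn.one C g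
  | succ j ih => rw [pow_succ]; exact ih.mul H hh

theorem CommOn.avg {C : Set E} {g h : E →L[ℝ] E} (H : CommOn C g h) (hh : MapsTo h C C)
    (n : ℕ) : CommOn C g (avg h n) := by
  intro x hx
  rw [avg_apply, avg_apply, map_sum]
  refine Finset.sum_congr rfl fun j _ => ?_
  rw [map_smul, H.pow hh j x hx]

/-- product of averages along a list -/
noncomputable def prodAvg {ι : Type*} (T : ι → E →L[ℝ] E) : List (ι × ℕ) → E →L[ℝ] E
  | [] => 1
  | p :: l => avg (T p.1) p.2 * prodAvg T l

variable {ι : Type*} {C : Set E} {T : ι → E →L[ℝ] E}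

theorem prodAvg_mapsTo (hconv : Convex ℝ C) (hT : ∀ i, MapsTo (T i) C C) (l : List (ι × ℕ)) :
    MapsTo (prodAvg T l) C C := by
  induction l with
  | nil => intro x hx; exact hx
  | cons p l ih =>
    intro x hx
    exact avg_mapsTo hconv (hT p.1) p.2 (ih hx)

theorem prodAvg_append (l l' : List (ι × ℕ)) (x : E) :
    prodAvg T (l ++ l') x = prodAvg T l (prodAvg T l' x) := by
  induction l with
  | nil => rfl
  | cons p l ih =>
    change avg (T p.1) p.2 (prodAvg T (l ++ l') x) = avg (T p.1) p.2 (prodAvg T l (prodAvg T l' x))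
    rw [ih]

theorem commOn_prodAvg (hconv : Convex ℝ C) (hT : ∀ i, MapsTo (T i) C C) {g : E →L[ℝ] E}
    (hg : ∀ i, CommOn C g (T i)) (l : List (ι × ℕ)) : CommOn C g (prodAvg T l) := by
  induction l with
  | nil => exact CommOn.one C g
  | cons p l ih =>
    exact ((hg p.1).avg (hT p.1) p.2).mul ih (prodAvg_mapsTo hconv hT l)

theorem commOn_prodAvg_prodAvg (hconv : Convex ℝ C) (hT : ∀ i, MapsTo (T i) C C)
    (hcomm : ∀ i j, CommOn C (T i) (T j)) (l l' : List (ι × ℕ)) :
    CommOn C (prodAvg T l) (prodAvg T l') := by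
  apply commOn_prodAvg hconv hT
  intro i
  apply CommOn.symm
  exact commOn_prodAvg hconv hT (fun j => hcomm i j) l

/-- **Markov-Kakutani**, maps commuting on `C`. -/
theorem exists_fixed_of_comm [T2Space E] (hC : IsCompact C) (hconv : Convex ℝ C)
    (hne : C.Nonempty) (hT : ∀ i, MapsTo (T i) C C) (hcomm : ∀ i j, CommOn C (T i) (T j)) :
    ∃ x ∈ C, ∀ i, T i x = x := by
  -- the images of `C` under products of averages
  have hdir : Directed (· ⊇ ·) (fun l : List (ι × ℕ) => prodAvg T l '' C) := by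
    intro l l'
    refine ⟨l ++ l', ?_, ?_⟩
    · rintro _ ⟨x, hx, rfl⟩
      rw [prodAvg_append]
      exact ⟨_, prodAvg_mapsTo hconv hT l' hx, rfl⟩
    · rintro _ ⟨x, hx, rfl⟩
      rw [prodAvg_append, commOn_prodAvg_prodAvg hconv hT hcomm l l' x hx]
      exact ⟨_, prodAvg_mapsTo hconv hT l hx, rfl⟩
  have hcomp : ∀ l : List (ι × ℕ), IsCompact (prodAvg T l '' C) := fun l =>
    hC.image (prodAvg T l).continuous
  obtain ⟨y, hy⟩ := IsCompact.nonempty_iInter_of_directed_nonempty_isCompact_isClosed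
    (fun l : List (ι × ℕ) => prodAvg T l '' C) hdir (fun l => hne.image _) hcomp
    (fun l => (hcomp l).isClosed)
  rw [mem_iInter] at hy
  refine ⟨y, ?_, fun i => ?_⟩
  · obtain ⟨x, hx, hxy⟩ := hy []
    rw [← hxy]
    exact hx
  · -- `T i y - y` is in `(1/(n+1)) (C - C)` for every `n`
    have hb : Bornology.IsVonNBounded ℝ (C - C) := by
      let _ : UniformSpace E := IsTopologicalAddGroup.rightUniformSpace E
      have _ : IsUniformAddGroup E := isUniformAddGroup_of_addCommGroup
      rw [sub_eq_add_neg]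
      exact ((hC.add hC.neg).totallyBounded).isVonNBounded ℝ
    choose z hzC hz using fun n : ℕ => hy [(i, n)]
    have hz' : ∀ n, T i y - y = ((n + 1 : ℕ) : ℝ)⁻¹ • ((T i ^ (n + 1) : E →L[ℝ] E) (z n) - z n) := by
      intro n
      have : y = avg (T i) n (z n) := (hz n).symm
      conv_lhs => rw [this]
      exact apply_avg_sub (T i) n (z n)
    have hlim : Tendsto (fun n : ℕ => ((n + 1 : ℕ) : ℝ)⁻¹ •
        ((T i ^ (n + 1) : E →L[ℝ] E) (z n) - z n)) atTop (𝓝 0) := by
      have hε : Tendsto (fun n : ℕ => ((n + 1 : ℕ) : ℝ)⁻¹) atTop (𝓝 0) := by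
        have := tendsto_one_div_add_atTop_nhds_zero_nat (𝕜 := ℝ)
        simpa [one_div] using this
      refine hb.smul_tendsto_zero (Eventually.of_forall fun n => ?_) hε
      exact Set.sub_mem_sub (pow_mapsTo (hT i) (n + 1) (hzC n)) (hzC n)
    have hconst : Tendsto (fun _ : ℕ => T i y - y) atTop (𝓝 0) := by
      refine hlim.congr fun n => (hz' n).symm
    have := tendsto_nhds_unique hconst tendsto_const_nhds
    exact sub_eq_zero.mp this.symm

/-- **Markov-Kakutani for solvable groups.** -/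
theorem exists_fixed_of_solvable [T2Space E] {G : Type*} [Group G] [Group.IsSolvable G]
    (hC : IsCompact C) (hconv : Convex ℝ C) (hne : C.Nonempty)
    (ρ : G →* (E →L[ℝ] E)) (hρ : ∀ g, MapsTo (ρ g) C C) :
    ∃ x ∈ C, ∀ g, ρ g x = x := by
  -- descending induction along the derived series
  obtain ⟨m, hm⟩ := Group.IsSolvable.solvable (G := G)
  have key : ∀ j ≤ m, ∃ x ∈ C, ∀ g ∈ derivedSeries G (m - j), ρ g x = x := by
    intro j
    induction j with
    | zero =>
      intro _
      obtain ⟨x, hx⟩ := hne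
      refine ⟨x, hx, fun g hg => ?_⟩
      rw [Nat.sub_zero, hm, Subgroup.mem_bot] at hg
      rw [hg, map_one]
      rfl
    | succ j ih =>
      intro hj
      obtain ⟨x₀, hx₀, hfix₀⟩ := ih (by omega)
      set D := derivedSeries G (m - j) with hD
      set D' := derivedSeries G (m - (j + 1)) with hD'
      have hDD' : D = ⁅D', D'⁆ := by
        rw [hD, hD', show m - j = m - (j + 1) + 1 by omega, derivedSeries_succ]
      have hDn : D.Normal := by rw [hD]; infer_instance
      -- the fixed points of `D` in `C`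
      set C' : Set E := {x ∈ C | ∀ g ∈ D, ρ g x = x} with hC'
      have hC'c : IsCompact C' := by
        have : C' = C ∩ ⋂ g ∈ D, {x | ρ g x = x} := by
          ext x; simp [hC']
        rw [this]
        refine hC.inter_right ?_
        refine isClosed_biInter fun g _ => ?_
        exact isClosed_eq (ρ g).continuous continuous_id
      have hC'v : Convex ℝ C' := by
        intro x hx y hy a b ha hb hab
        refine ⟨hconv hx.1 hy.1 ha hb hab, fun g hg => ?_⟩
        rw [map_add, map_smul, map_smul, hx.2 g hg, hy.2 g hg]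
      have hmaps : ∀ i : D', MapsTo (ρ (i : G)) C' C' := by
        rintro ⟨h, hh⟩ x ⟨hxC, hx⟩
        refine ⟨hρ h hxC, fun g hg => ?_⟩
        have h1 : h⁻¹ * g * h ∈ D := by
          have := hDn.conj_mem g hg h⁻¹
          rwa [inv_inv] at this
        have h2 : ρ g (ρ h x) = ρ h (ρ (h⁻¹ * g * h) x) := by
          rw [← mul_apply_eq_comp, ← mul_apply_eq_comp, ← map_mul,
            ← map_mul]
          congr 2
          group
        change ρ g (ρ h x) = ρ h x
        rw [h2, hx _ h1]
      have hcomm : ∀ i i' : D', CommOn C' (ρ (i : G)) (ρ (i' : G)) := by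
        rintro ⟨h, hh⟩ ⟨h', hh'⟩ x hx
        change ρ h (ρ h' x) = ρ h' (ρ h x)
        have h1 : (h' * h)⁻¹ * (h * h') ∈ D := by
          rw [hDD']
          have : (h' * h)⁻¹ * (h * h') = ⁅h⁻¹, h'⁻¹⁆ := by
            simp only [commutatorElement_def]; group
          rw [this]
          exact Subgroup.commutator_mem_commutator (D'.inv_mem hh) (D'.inv_mem hh')
        have h2 : ρ h (ρ h' x) = ρ (h' * h) (ρ ((h' * h)⁻¹ * (h * h')) x) := by
          rw [← mul_apply_eq_comp, ← mul_apply_eq_comp, ← map_mul,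
            ← map_mul]
          congr 2
          group
        rw [h2, hx.2 _ h1, map_mul]
        rfl
      obtain ⟨x, hx, hfix⟩ := exists_fixed_of_comm (T := fun i : D' => ρ (i : G)) hC'c hC'v
        ⟨x₀, hx₀, hfix₀⟩ hmaps hcomm
      exact ⟨x, hx.1, fun g hg => hfix ⟨g, hg⟩⟩
  obtain ⟨x, hx, hfix⟩ := key m le_rfl
  refine ⟨x, hx, fun g => hfix g ?_⟩
  rw [Nat.sub_self, derivedSeries_zero]
  exact Subgroup.mem_top g

end MK

end Vale.Agent.P011.H371
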